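import Vale.Agent.P159.T1.F.SharpFin
import Vale.Agent.P159.T1.NC.Main
import Vale.Agent.P159.T1.NC.H254.OrderNC
import Vale.Agent.P159.T1.NW.Fin
import Vale.Agent.P159.T1.NW.H566.Chi
import Vale.Agent.P159.T1.S.H711.RHj
import Vale.Agent.P159.T1.S.H897.Loc
import Vale.Agent.P159.H556.Final2
import Vale.Agent.P159.H170.Final

/-!
P159 / T1, the corollaries of `helicity bCrit = 2 / π` (helper356, TOP hand-in).
-/

open Filter Topology Vale.Agent.P159 Vale.Agent.P159.H950 Vale.Agent.P159.T1.S.Hv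

namespace Vale.Agent.P159.TM.H356

/-- what the value `2 / π` of the helicity modulus at the critical point gives -/
def Cor : Prop :=
    -- the helicity modulus has the universal jump `2 / π`
    (helicity bCrit = 2 / Real.pi ∧ (∀ b : ℝ, 0 < b → b < bCrit → helicity b = 0) ∧
      Tendsto helicity (𝓝[>] bCrit) (𝓝 (2 / Real.pi)) ∧
      ∀ b : ℝ, bCrit < b → 2 / Real.pi < helicity b) ∧
    -- the two-point function at the critical point has the exponent `1 / 4`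
    (Tendsto (fun r : ℕ => Real.log (corrInf bCrit ((r : ℤ), 0)) / Real.log r) atTop
      (𝓝 (-(1 / 4)))) ∧
    (Tendsto (fun x : ℤ × ℤ => Real.log (corrInf bCrit x) /
      Real.log ((max |x.1| |x.2| : ℤ) : ℝ)) cofinite (𝓝 (-(1 / 4)))) ∧
    (∀ ε : ℝ, 0 < ε → ∃ c K : ℝ, 0 < c ∧ ∀ x : ℤ × ℤ, x ≠ 0 →
      c * ((max |x.1| |x.2| : ℤ) : ℝ) ^ (-(1 / 4 + ε)) ≤ corrInf bCrit x ∧
        corrInf bCrit x ≤ K * ((max |x.1| |x.2| : ℤ) : ℝ) ^ (-(1 / 4 - ε))) ∧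
    -- all charges and all neutral correlations at the critical point
    (∀ q : ℕ, 1 ≤ q →
      Tendsto (fun x : ℤ × ℤ => Real.log (chargeInf bCrit ![(q : ℤ), -(q : ℤ)] ![0, x]) /
        Real.log ((max |x.1| |x.2| : ℤ) : ℝ)) cofinite (𝓝 (-((q : ℝ) ^ 2 / 4)))) ∧
    (∀ (k : ℕ) (m : Fin k → ℤ), ∑ j, m j = 0 → ∀ ε : ℝ, 0 < ε →
      ∃ K : ℝ, ∀ (x : Fin k → ℤ × ℤ) (N : ℕ), 1 ≤ N →
        (∀ i j, max |(x i - x j).1| |(x i - x j).2| ≤ (N : ℤ)) →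
        0 < chargeInf bCrit m x ∧
          |Real.log (chargeInf bCrit m x) - 1 / 8 * ∑ i, ∑ j, (m i * m j : ℝ) *
              Real.log (max 1 ((max |(x i - x j).1| |(x i - x j).2| : ℤ) : ℝ))| ≤
            ε * Real.log N + K) ∧
    -- the correlation length as `b ↑ bCrit`
    (∀ ν : ℝ, ν < 2 / 3 → ∃ c δ : ℝ, 0 < c ∧ 0 < δ ∧ ∀ b : ℝ, bCrit - δ < b → b < bCrit →
      c * (bCrit - b) ^ (-ν) ≤ corrLength b) ∧
    -- its logarithm is asymptotic to that of the finite-volume scale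
    (∀ d : ℝ, 0 < d → d < 2 / Real.pi → ∀ ε : ℝ, 0 < ε →
      ∃ δ : ℝ, 0 < δ ∧ ∀ b : ℝ, bCrit - δ < b → b < bCrit →
        ∃ L : ℕ, IsLeast {l : ℕ | 1 ≤ l ∧ stiff l b ≤ 2 / Real.pi - d} L ∧
          (1 - ε) * Real.log L ≤ Real.log (corrLength b) ∧
          Real.log (corrLength b) ≤ (1 + ε) * Real.log L) ∧
    (∀ ε : ℝ, 0 < ε → ∃ K : ℝ, 0 < K ∧ ∀ b : ℝ, 0 < b → b < bCrit →
      ∀ L : ℕ, 1 ≤ L → (L : ℝ) ≤ corrLength b →
        (2 / Real.pi - stiff L b) * (Real.log (corrLength b) - Real.log L) ≤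
          ε * Real.log (corrLength b) + K) ∧
    -- the two-point function in the near critical window
    (∀ ε : ℝ, 0 < ε → ∃ c : ℝ, 0 < c ∧ ∀ b : ℝ, 0 < b → b ≤ bCrit → ∀ x : ℤ × ℤ, x ≠ 0 →
      (bCrit - b) * ((max |x.1| |x.2| : ℤ) : ℝ) ^ (3 / 2 + ε) ≤ c →
      c * ((max |x.1| |x.2| : ℤ) : ℝ) ^ (-(1 / 4 + ε)) ≤ corrInf b x) ∧
    (∀ ν : ℝ, 0 < ν → ν < 2 / 3 → ∀ ε : ℝ, 0 < ε → ∃ δ : ℝ, 0 < δ ∧ ∃ K : ℝ,
      ∀ b : ℝ, bCrit - δ < b → b < bCrit →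
        ∀ x : ℤ × ℤ, x ≠ 0 → ((max |x.1| |x.2| : ℤ) : ℝ) ≤ (bCrit - b) ^ (-ν) →
          |Real.log (corrInf b x) + 1 / 4 * Real.log ((max |x.1| |x.2| : ℤ) : ℝ)| ≤
            ε * Real.log ((max |x.1| |x.2| : ℤ) : ℝ) + K) ∧
    -- the susceptibility
    (∀ γ : ℝ, 0 < γ → γ < 7 / 6 → ∃ c : ℝ, 0 < c ∧ ∀ b : ℝ, 0 < b → b < bCrit →
      Summable (corrInf b) ∧ c * (bCrit - b) ^ (-γ) ≤ ∑' x : ℤ × ℤ, corrInf b x) ∧
    -- the dual integer heights at the critical point and below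
    (∀ ε : ℝ, 0 < ε → ∃ C : ℝ, ∀ n : ℕ, 1 ≤ n →
      ∀ x y : ℤ × ℤ, 2 * max |x.1| |x.2| ≤ n → 2 * max |y.1| |y.2| ≤ n →
        |hMean bCrit (Finset.Icc (-(n : ℤ), -(n : ℤ)) ((n : ℤ), (n : ℤ)))
            (fun h => (h x : ℝ) * h y) -
          1 / Real.pi ^ 2 *
            Real.log (n / (max 1 ((max |(x - y).1| |(x - y).2| : ℤ) : ℝ)))| ≤
          ε * Real.log n + C) ∧
    (∀ ε : ℝ, 0 < ε → ∃ K : ℝ, ∀ b : ℝ, 0 < b → b < bCrit →
      ∀ (U : Finset (ℤ × ℤ)) (x : ℤ × ℤ), hMean b U (fun h => (h x : ℝ) ^ 2) ≤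
        (1 / Real.pi ^ 2 + ε) * max 0 (Real.log (corrLength b)) + K)

theorem cor (h : helicity bCrit = 2 / Real.pi) : Cor := by
  have hpi := Real.pi_pos
  have hpi0 : Real.pi ≠ 0 := hpi.ne'
  obtain ⟨s1, -, s3, s4, s5, s6⟩ := T1.F.sharpFin
  obtain ⟨-, m2, m3, -, -, -, -⟩ := H170.final
  obtain ⟨g1, -⟩ := H556.final2
  obtain ⟨w1, w2, w3⟩ := T1.NW.nearCrit T1.NW.H566.stmtChi
  have e4 : 1 / (2 * Real.pi * helicity bCrit) = 1 / 4 := by
    rw [h]; field_simp; norm_num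
  have hmain : Tendsto (fun x : ℤ × ℤ => Real.log (corrInf bCrit x) /
      Real.log ((max |x.1| |x.2| : ℤ) : ℝ)) cofinite (𝓝 (-(1 / 4))) := by
    have := s1 bCrit le_rfl
    rwa [e4] at this
  refine ⟨⟨h, fun b hb hbb => (m2 b hb hbb).2.1, h ▸ m3.2.1, fun b hb => ?_⟩, ?_, hmain, ?_, ?_, ?_,
    ?_, ?_, ?_, ?_, ?_, ?_, ?_, ?_⟩
  · exact h ▸ m3.2.2.1 Set.self_mem_Ici hb.le hb
  · -- along the axis
    have hi : Tendsto (fun r : ℕ => (((r : ℤ), (0 : ℤ)) : ℤ × ℤ)) atTop cofinite := by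
      rw [← Nat.cofinite_eq_atTop]
      exact Function.Injective.tendsto_cofinite fun a b hab => by simpa using hab
    refine (hmain.comp hi).congr fun r => ?_
    simp
  · intro ε hε
    obtain ⟨c, hc, h1⟩ := s3 ε hε
    obtain ⟨K, h2⟩ := s4.2 h ε hε
    exact ⟨c, K, hc, fun x hx => ⟨h1 x hx, h2 x hx⟩⟩
  · intro q hq
    have := s5 bCrit le_rfl q hq
    have e : (q : ℝ) ^ 2 / (2 * Real.pi * helicity bCrit) = (q : ℝ) ^ 2 / 4 := by
      rw [div_eq_mul_one_div, e4]; ring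
    rwa [e] at this
  · intro k m hm ε hε
    obtain ⟨K, hK⟩ := s6 bCrit le_rfl k m hm ε hε
    refine ⟨K, fun x N hN hx => ?_⟩
    obtain ⟨h1, h2⟩ := hK x N hN hx
    refine ⟨h1, ?_⟩
    have e : 1 / (4 * Real.pi * helicity bCrit) = 1 / 8 := by
      rw [h]; field_simp; norm_num
    rwa [e] at h2
  · intro ν hν
    refine g1 ν ?_
    rw [h]
    have e : 1 / (2 - 1 / (Real.pi * (2 / Real.pi))) = 2 / 3 := by
      field_simp; norm_num
    rwa [e]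
  · intro d hd hd' ε hε
    obtain ⟨δ, hδ, H⟩ := T1.NC.H254.orderNC NC.sharpNC d hd hd' ε hε
    refine ⟨δ, hδ, fun b hb hbb => ?_⟩
    obtain ⟨L, hL, h1, h2⟩ := H b hb hbb
    have hL1 : (1 : ℝ) ≤ L := by exact_mod_cast hL.1.1
    have hL0 : 0 ≤ Real.log L := Real.log_nonneg hL1
    have hx0 : 0 ≤ Real.log (corrLength b) := by
      by_contra hneg
      push Not at hneg
      nlinarith
    rw [h] at h2
    simp only [sub_self, zero_div, add_zero] at h2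
    refine ⟨L, hL, ?_, h2⟩
    by_cases hε1 : ε ≤ 1
    · nlinarith [mul_nonneg (sq_nonneg ε) hx0, mul_le_mul_of_nonneg_left h1 (sub_nonneg.2 hε1)]
    · push Not at hε1
      nlinarith
  · intro ε hε
    obtain ⟨K, hK, H⟩ := NC.sharpNC ε hε
    refine ⟨K, hK, fun b hb hbb L hL hLx => ?_⟩
    have := H b hb hbb L hL hLx
    rw [h] at this
    simpa using this
  · intro ε hε
    obtain ⟨c, hc, H⟩ := w1 ε hε
    refine ⟨c, hc, fun b hb hbb x hx hx2 => ?_⟩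
    have := H b hb hbb x hx
    rw [e4] at this
    refine this ?_
    convert hx2 using 3
    norm_num
  · intro ν hν hν2 ε hε
    obtain ⟨δ, hδ, K, H⟩ := w2 ν hν (by rw [e4]; linarith) ε hε
    refine ⟨δ, hδ, K, fun b hb hbb x hx hx2 => ?_⟩
    have := H b hb hbb x hx hx2
    rwa [e4] at this
  · intro γ hγ hγ2
    exact w3 γ hγ (by rw [e4]; linarith)
  · intro ε hε
    obtain ⟨C, hC⟩ := cov_log' bCrit le_rfl ε hε
    refine ⟨C, fun n hn x y hx hy => ?_⟩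
    have := hC n hn x y hx hy
    have e : helicity bCrit / (2 * Real.pi) = 1 / Real.pi ^ 2 := by
      rw [h]; field_simp
    rwa [e] at this
  · intro ε hε
    obtain ⟨K, hK⟩ := T1.S.H897.loc_sharp' ε hε
    refine ⟨K, fun b hb hbb U x => ?_⟩
    have := hK b hb hbb U x
    have e : helicity bCrit / (2 * Real.pi) = 1 / Real.pi ^ 2 := by
      rw [h]; field_simp
    rwa [e] at this

end Vale.Agent.P159.TM.H356
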